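import Vale.Agent.P011N.Cl.MV.Pl
import Vale.Agent.P011N.Cl.MV.A

/-!
The outer forms of type `E₆`: the assembly of the blocks.
-/

namespace Vale.Agent.P011N.Cl.O

open Vale.Agent.P011.MPQ Equiv

variable {F : Type} [Field F] [NumberField F] {Γ Γ' : Subgroup (Gl F)} {r σ θ : Gl F} {d q e : F}
  {u : M3 F} {Φ Φ' : Subgroup (Perm (W1 F))}

theorem uiso_of_mov (h : Mov Φ Φ') : UIso (Pts (S6 1 1 1) Φ) (Pts (S6 1 1 1) Φ') := by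
  obtain ⟨ψ, _, _, _, h1, rfl⟩ := h
  exact (uiso_tr6 h1 Φ).symm

theorem pm_q (h : OSet Γ r σ θ d q e u) {γ : Gl F} (hγ : γ ∈ Γ) : γ q = q ∨ γ q = -q := by
  obtain ⟨i, rfl | rfl | rfl | rfl⟩ := MV.os_form h hγ <;>
    simp only [AlgEquiv.mul_apply, MV.pow_fix h.rq, h.σq, h.θq, map_neg, true_or, or_true]

/-- The block GEN for a configuration. -/
theorem gen (hG : GENStmt) (h : OSet Γ r σ θ d q e u) (hc : Cfg Γ r q u Φ) (hle : Γ' ≤ Γ) {t : F}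
    (h0 : t ≠ 0) (h1 : ∀ γ ∈ Γ', γ t = t ∨ γ t = -t)
    (h2 : GrOn Φ (fun γ => γ ∈ Γ' ∧ γ t = t) false) {s : Gl F} (h3 : s ∈ Γ') (h4 : s t = -t)
    (h5 : s q = -q) (h6 : r ∈ Γ') (h7 : r t = t) : ∃ Φ', Mov Φ Φ' ∧ Cfg Γ r q u Φ' ∧
      GrOn Φ' (fun γ => γ ∈ Γ' ∧ γ t = t) false ∧ GrOn Φ' (fun γ => γ ∈ Γ' ∧ γ t = -t) true := by
  obtain ⟨φ, k1, k2⟩ := hc.dat.ov.onto s (hle h3)
  obtain ⟨p, p1, p2, p3⟩ := hc.cyc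
  obtain ⟨ψ, _, _, _, l1, l2, l3, l4⟩ := hG F Γ Γ' Φ t hc.dat hle h0 h1 h2
    ⟨φ, k1, s, h3, k2, h4, not_forall.1 fun k => h.q0 (by
      linear_combination (1 / 2 : F) * h5 - (1 / 2 : F) * (hc.inn φ k1 s k2).1 k)⟩
    p p1 r h6 p2 h7 _ p3
  refine ⟨_, ⟨ψ, _, _, _, l1, rfl⟩, ⟨hc.dat.tr l1, fun φ hφ γ hs => ?_, l4⟩, l2, l3⟩
  have m1 := (MV.semi_congr l1).2 hs
  obtain ⟨ε, _, _, _, m2⟩ := hc.dat.sim_of hφ m1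
  obtain ⟨_, _, _, m3⟩ := l1.tr m2
  rw [m3.inner_iff, ← m2.inner_iff]
  exact hc.inn _ hφ γ m1

/-- The theorem for the outer forms of type `E₆`. -/
theorem thm6O (hS : SetStmt) (hG : GENStmt) (hB : B2Stmt) (hM : MatchStmt) (hA : AuxStmt)
    (hF : FinStmt) : Thm6O := by
  intro F₀ _ _ Γ₀ Φ₀ h0 h1 h2
  obtain ⟨F, _, _, Γ, r, σ, θ, d, q, e, u, Φ, h, c0, g0, u0⟩ := hS F₀ Γ₀ Φ₀ h0 h1
  obtain ⟨Φ₁, m1, c1, g1, g1'⟩ := gen hG h c0 (Γ' := stb Γ d) stb_le h.q0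
    (fun γ hγ => pm_q h hγ.1) (fun φ hφ γ k1 k2 => g0 φ hφ γ k1 ⟨k2.1.2, k2.2⟩)
    ⟨MV.os_σ h, h.σd⟩ h.σq h.σq ⟨MV.os_r h, h.rd⟩ h.rq
  obtain ⟨Φ₂, m2, c2, g2⟩ := hB F Γ r σ θ d q e u Φ₁ h c1
    (fun φ hφ γ k1 k2 => g1 φ hφ γ k1 ⟨⟨c1.dat.ov.mem hφ k1, k2.1⟩, k2.2⟩)
    fun φ hφ γ k1 k2 => g1' φ hφ γ k1 ⟨⟨c1.dat.ov.mem hφ k1, k2.1⟩, k2.2⟩
  obtain ⟨Φ₃, m3, c3, g3, g3'⟩ := gen hG h c2 le_rfl h.d0 (fun γ hγ => MV.os_pm h hγ)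
    (fun φ hφ γ k1 k2 => g2 φ hφ γ k1 k2.2) (MV.os_s h) (MV.os_sd h) (MV.os_sq h) (MV.os_r h) h.rd
  obtain ⟨Φ₄, m4, c4, g4, g4'⟩ := hM F Γ r σ θ d q e u Φ₃ h c3
    ⟨fun φ hφ γ k1 k2 => g3 φ hφ γ k1 ⟨c3.dat.ov.mem hφ k1, k2⟩,
      fun φ hφ γ k1 k2 => g3' φ hφ γ k1 ⟨c3.dat.ov.mem hφ k1, k2⟩⟩
  have u4 := (((u0.trans (uiso_of_mov m1)).trans (uiso_of_mov m2)).trans (uiso_of_mov m3)).trans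
    (uiso_of_mov m4)
  exact u4.simp (hF F Γ r σ θ d q e u Φ₄ h c4 g4 g4'
    (fun hr => hA F Γ r σ θ d q e u Φ₄ h c4 g4 hr (u4.ani h2)) (u4.ani h2))

end Vale.Agent.P011N.Cl.O
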